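import Vale.Agent.H14.Borsuk63.Glue
import Vale.Agent.H8.Borsuk63Clique

/-!
# P052: a finite set in `ℝ⁶³` with Borsuk number at least `65`

The statement of the problem file, literally: there is a bounded (even finite) set `Y` of
positive diameter in `ℝ⁶³` such that for no `k ≤ 64` is `Y` a union of `k` subsets each of
diameter strictly smaller than the diameter of `Y`.  In the notation of the problem file,
`b(Y) ≥ 65 > 63 + 1`, so Borsuk's conjecture fails in dimension `63`.
-/

namespace Vale.Agent.Results.P052.A_BorsukNumberAtLeastSixtyFive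

open Vale.Agent.H14.Borsuk63

theorem result :
    ∃ Y : Set (EuclideanSpace ℝ (Fin 63)),
      Y.Finite ∧ Bornology.IsBounded Y ∧ 0 < Metric.diam Y ∧
      ∀ k : ℕ, k ≤ 64 →
        ¬ ∃ C : Fin k → Set (EuclideanSpace ℝ (Fin 63)),
          Y = (⋃ i, C i) ∧ ∀ i, Metric.diam (C i) < Metric.diam Y := by
  obtain ⟨X, hpos, hX⟩ := borsuk_sixty_three_of_no_six_clique Vale.Agent.H8.no_six_clique
  have hbd : Bornology.IsBounded (↑X : Set (EuclideanSpace ℝ (Fin 63))) :=
    (Finset.finite_toSet X).isBounded
  refine ⟨(↑X : Set (EuclideanSpace ℝ (Fin 63))), Finset.finite_toSet X, hbd, hpos, ?_⟩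
  rintro k hk ⟨C, hYC, hC⟩
  classical
  have hmem : ∀ x ∈ X, ∃ i, x ∈ C i := by
    intro x hx
    have hx' : x ∈ (↑X : Set (EuclideanSpace ℝ (Fin 63))) := Finset.mem_coe.mpr hx
    rw [hYC] at hx'
    exact Set.mem_iUnion.mp hx'
  have hsub : ∀ i, C i ⊆ (↑X : Set (EuclideanSpace ℝ (Fin 63))) := by
    intro i
    rw [hYC]
    exact Set.subset_iUnion C i
  obtain ⟨x, hx, y, hy, hfxy, hd⟩ :=
    hX (fun x => if h : ∃ i, x ∈ C i then Fin.castLE hk (Classical.choose h) else 0)
  have hxC : x ∈ C (Classical.choose (hmem x hx)) := Classical.choose_spec (hmem x hx)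
  have hyC : y ∈ C (Classical.choose (hmem y hy)) := Classical.choose_spec (hmem y hy)
  have hfx : (if h : ∃ i, x ∈ C i then Fin.castLE hk (Classical.choose h) else (0 : Fin 64))
      = Fin.castLE hk (Classical.choose (hmem x hx)) := dif_pos (hmem x hx)
  have hfy : (if h : ∃ i, y ∈ C i then Fin.castLE hk (Classical.choose h) else (0 : Fin 64))
      = Fin.castLE hk (Classical.choose (hmem y hy)) := dif_pos (hmem y hy)
  have hii : Classical.choose (hmem x hx) = Classical.choose (hmem y hy) := by
    apply Fin.castLE_injective hk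
    rw [← hfx, ← hfy]
    exact hfxy
  have hle : dist x y ≤ Metric.diam (C (Classical.choose (hmem x hx))) := by
    apply Metric.dist_le_diam_of_mem (hbd.subset (hsub _)) hxC
    rw [hii]
    exact hyC
  have hlt := hC (Classical.choose (hmem x hx))
  rw [hd] at hle
  exact absurd hlt (not_lt.mpr hle)

end Vale.Agent.Results.P052.A_BorsukNumberAtLeastSixtyFive
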