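import Vale.Agent.H14.Borsuk63.Glue
import Vale.Agent.H8.Borsuk63Clique
import Vale.Agent.H14.Borsuk.FewPoints

/-!
# P052: Borsuk's conjecture fails in dimension `63`, and it holds for sets of at most `d + 4` points

Two results on Borsuk's partition problem in one statement.

1. There is a finite set `X` of positive diameter in `ℝ⁶³` which is not a union of `64` subsets of
   smaller diameter: whenever `X` is covered by `64` sets, one of them meets `X` in a set whose
   diameter equals the diameter of `X`; and every map of `ℝ⁶³` to `64` classes puts two points of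
   `X` at distance `diam X` into one class.
2. In every dimension `d`, every set of at least two and at most `d + 4` points of Euclidean
   `d`-space is a union of `d + 1` subsets of strictly smaller diameter.
-/

namespace Vale.Agent.Results.P052.A_CounterexampleAndFewPoints

open Vale.Agent.H14.Borsuk63

theorem result :
    (∃ X : Finset (EuclideanSpace ℝ (Fin 63)),
      0 < Metric.diam (↑X : Set (EuclideanSpace ℝ (Fin 63))) ∧
      (∀ C : Fin 64 → Set (EuclideanSpace ℝ (Fin 63)),
        (↑X : Set (EuclideanSpace ℝ (Fin 63))) ⊆ (⋃ i, C i) →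
        ∃ i, Metric.diam (C i ∩ (↑X : Set (EuclideanSpace ℝ (Fin 63))))
          = Metric.diam (↑X : Set (EuclideanSpace ℝ (Fin 63)))) ∧
      (∀ f : EuclideanSpace ℝ (Fin 63) → Fin 64, ∃ x ∈ X, ∃ y ∈ X, f x = f y ∧
        dist x y = Metric.diam (↑X : Set (EuclideanSpace ℝ (Fin 63))))) ∧
    (∀ (d : ℕ) (X : Finset (EuclideanSpace ℝ (Fin d))), 2 ≤ X.card → X.card ≤ d + 4 →
      ∃ f : EuclideanSpace ℝ (Fin d) → Fin (d + 1),
        ∀ i : Fin (d + 1),
          Metric.diam {x : EuclideanSpace ℝ (Fin d) | x ∈ X ∧ f x = i} <
            Metric.diam (X : Set (EuclideanSpace ℝ (Fin d)))) := by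
  constructor
  · obtain ⟨X, hpos, hX⟩ := borsuk_sixty_three_of_no_six_clique Vale.Agent.H8.no_six_clique
    refine ⟨X, hpos, ?_, hX⟩
    intro C hC
    classical
    have hbd : Bornology.IsBounded (↑X : Set (EuclideanSpace ℝ (Fin 63))) :=
      (Finset.finite_toSet X).isBounded
    have hmem : ∀ x ∈ X, ∃ i, x ∈ C i := by
      intro x hx
      exact Set.mem_iUnion.mp (hC (Finset.mem_coe.mpr hx))
    obtain ⟨x, hx, y, hy, hfxy, hd⟩ :=
      hX (fun x => if h : ∃ i, x ∈ C i then Classical.choose h else 0)
    have hxC : x ∈ C (Classical.choose (hmem x hx)) := Classical.choose_spec (hmem x hx)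
    have hyC : y ∈ C (Classical.choose (hmem y hy)) := Classical.choose_spec (hmem y hy)
    have hfx : (if h : ∃ i, x ∈ C i then Classical.choose h else (0 : Fin 64))
        = Classical.choose (hmem x hx) := dif_pos (hmem x hx)
    have hfy : (if h : ∃ i, y ∈ C i then Classical.choose h else (0 : Fin 64))
        = Classical.choose (hmem y hy) := dif_pos (hmem y hy)
    have hii : Classical.choose (hmem x hx) = Classical.choose (hmem y hy) := by
      rw [← hfx, ← hfy]
      exact hfxy
    refine ⟨Classical.choose (hmem x hx), le_antisymm ?_ ?_⟩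
    · exact Metric.diam_mono Set.inter_subset_right hbd
    · rw [← hd]
      apply Metric.dist_le_diam_of_mem (hbd.subset Set.inter_subset_right)
      · exact ⟨hxC, Finset.mem_coe.mpr hx⟩
      · exact ⟨by rw [hii]; exact hyC, Finset.mem_coe.mpr hy⟩
  · intro d X h2 h4
    have hfin : Module.finrank ℝ (EuclideanSpace ℝ (Fin d)) = d := by simp
    have h4' : X.card ≤ Module.finrank ℝ (EuclideanSpace ℝ (Fin d)) + 4 := by omega
    obtain ⟨f, hf⟩ := Vale.Agent.H14.borsuk_few_points X h2 h4'
    refine ⟨fun x => Fin.cast (by rw [hfin]) (f x), ?_⟩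
    intro i
    have hset : {x : EuclideanSpace ℝ (Fin d) | x ∈ X ∧ Fin.cast (by rw [hfin]) (f x) = i}
        = {x | x ∈ X ∧ f x = Fin.cast (by rw [hfin]) i} := by
      ext x
      simp only [Set.mem_ofPred_eq]
      constructor
      · rintro ⟨hx, h⟩
        refine ⟨hx, ?_⟩
        rw [← h]
        ext
        simp
      · rintro ⟨hx, h⟩
        refine ⟨hx, ?_⟩
        rw [h]
        ext
        simp
    rw [hset]
    exact hf _

end Vale.Agent.Results.P052.A_CounterexampleAndFewPoints
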