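import Vale.Agent.H14.Borsuk63.Glue
import Vale.Agent.H8.Borsuk63Clique

/-!
# P052: the Borsuk partition conjecture fails in dimension 63

There is a finite set `X` of positive diameter in `ℝ⁶³` which is not a union of `64` subsets of
smaller diameter: whenever `X` is covered by `64` sets, one of them meets `X` in a set whose
diameter equals the diameter of `X`.  The set consists of `320` points of the
Bondarenko two-distance configuration (from the strongly regular graph with parameters
`(416, 100, 36, 20)`) lying in a `63`-dimensional flat, together with one further point of that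
flat at distance exactly `diam X` from each of the `320` points not adjacent to a fixed vertex
outside the flat.  A part of smaller diameter is a clique of the graph, so it has at most `5`
points, while `X` has `321 > 5 * 64` points.
-/

namespace Vale.Agent.Results.P052.A_DimensionSixtyThree

open Vale.Agent.H14.Borsuk63

theorem result :
    ∃ X : Finset (EuclideanSpace ℝ (Fin 63)),
      0 < Metric.diam (↑X : Set (EuclideanSpace ℝ (Fin 63))) ∧
      (∀ C : Fin 64 → Set (EuclideanSpace ℝ (Fin 63)),
        (↑X : Set (EuclideanSpace ℝ (Fin 63))) ⊆ (⋃ i, C i) →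
        ∃ i, Metric.diam (C i ∩ (↑X : Set (EuclideanSpace ℝ (Fin 63))))
          = Metric.diam (↑X : Set (EuclideanSpace ℝ (Fin 63)))) ∧
      (∀ f : EuclideanSpace ℝ (Fin 63) → Fin 64, ∃ x ∈ X, ∃ y ∈ X, f x = f y ∧
        dist x y = Metric.diam (↑X : Set (EuclideanSpace ℝ (Fin 63)))) := by
  obtain ⟨X, hpos, hX⟩ := borsuk_sixty_three_of_no_six_clique Vale.Agent.H8.no_six_clique
  refine ⟨X, hpos, ?_, hX⟩
  intro C hC
  classical
  have hbd : Bornology.IsBounded (↑X : Set (EuclideanSpace ℝ (Fin 63))) :=
    (Finset.finite_toSet X).isBounded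
  have hmem : ∀ x ∈ X, ∃ i, x ∈ C i := by
    intro x hx
    exact Set.mem_iUnion.mp (hC (Finset.mem_coe.mpr hx))
  obtain ⟨x, hx, y, hy, hfxy, hd⟩ :=
    hX (fun x => if h : ∃ i, x ∈ C i then Classical.choose h else 0)
  have hxC : x ∈ C (Classical.choose (hmem x hx)) := Classical.choose_spec (hmem x hx)
  have hyC : y ∈ C (Classical.choose (hmem y hy)) := Classical.choose_spec (hmem y hy)
  have hfx : (if h : ∃ i, x ∈ C i then Classical.choose h else (0 : Fin 64))
      = Classical.choose (hmem x hx) := dif_pos (hmem x hx)
  have hfy : (if h : ∃ i, y ∈ C i then Classical.choose h else (0 : Fin 64))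
      = Classical.choose (hmem y hy) := dif_pos (hmem y hy)
  have hii : Classical.choose (hmem x hx) = Classical.choose (hmem y hy) := by
    rw [← hfx, ← hfy]
    exact hfxy
  refine ⟨Classical.choose (hmem x hx), le_antisymm ?_ ?_⟩
  · exact Metric.diam_mono Set.inter_subset_right hbd
  · rw [← hd]
    apply Metric.dist_le_diam_of_mem (hbd.subset Set.inter_subset_right)
    · exact ⟨hxC, Finset.mem_coe.mpr hx⟩
    · exact ⟨by rw [hii]; exact hyC, Finset.mem_coe.mpr hy⟩

end Vale.Agent.Results.P052.A_DimensionSixtyThree
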