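import Vale.Agent.H14.Borsuk.FewPoints

/-!
# P052 (Borsuk's problem): sets of at most `d + 4` points

Every set of at least two and at most `d + 4` points of Euclidean `d`-space is a union of
`d + 1` subsets of strictly smaller diameter.  Hence a finite counterexample to Borsuk's
conjecture in dimension `d` has at least `d + 5` points.
-/

theorem Vale.Agent.Results.P052.A_FewPoints.result :
    ∀ (d : ℕ) (X : Finset (EuclideanSpace ℝ (Fin d))), 2 ≤ X.card → X.card ≤ d + 4 →
      ∃ f : EuclideanSpace ℝ (Fin d) → Fin (d + 1),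
        ∀ i : Fin (d + 1),
          Metric.diam {x : EuclideanSpace ℝ (Fin d) | x ∈ X ∧ f x = i} <
            Metric.diam (X : Set (EuclideanSpace ℝ (Fin d))) := by
  intro d X h2 h4
  have hfin : Module.finrank ℝ (EuclideanSpace ℝ (Fin d)) = d := by simp
  have h4' : X.card ≤ Module.finrank ℝ (EuclideanSpace ℝ (Fin d)) + 4 := by omega
  obtain ⟨f, hf⟩ := Vale.Agent.H14.borsuk_few_points X h2 h4'
  refine ⟨fun x => Fin.cast (by rw [hfin]) (f x), ?_⟩
  intro i
  have hset : {x : EuclideanSpace ℝ (Fin d) | x ∈ X ∧ Fin.cast (by rw [hfin]) (f x) = i}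
      = {x | x ∈ X ∧ f x = Fin.cast (by rw [hfin]) i} := by
    ext x
    simp only [Set.mem_ofPred_eq]
    constructor
    · rintro ⟨hx, h⟩
      refine ⟨hx, ?_⟩
      rw [← h]
      ext
      simp
    · rintro ⟨hx, h⟩
      refine ⟨hx, ?_⟩
      rw [h]
      ext
      simp
  rw [hset]
  exact hf _
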